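import Vale.Agent.P122.H286.Dens
import Vale.Agent.P106.R.E.Bx

/-!
# P106 / R / H286 : conformal boxes as a family of boxes (helper428, after helper286)

* `dg u` : the dyadic exponent of a width; `Pk` : time block and conformal box, `Pk.k`, `Pk.j` its shape
* `nbf s n c` : the family of boxes for the nodes of level `c`; `dens_of`, `mx_le_of_dens` : `Dens` is its maximal density
* `bvol_ge` : the volume by the shape; `count_boxes` : the number of boxes of the greedy partition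
-/

set_option autoImplicit false

namespace Vale.Agent.P106.R.H286

open Finset Vale.Agent.P106.R.C2 Vale.Agent.P106.R.E
open Vale.Agent.P106.W (Cbx)
open Vale.Agent.P122.H286 (BF GP)

/-- dyadic exponent of a width -/
noncomputable def dg (u : ℝ) : ℕ := Nat.log 2 ⌊1 / u⌋₊

theorem dg_spec {u : ℝ} (h0 : 0 < u) (h1 : u ≤ 1) : (1 / 2 : ℝ) ^ (dg u + 1) ≤ u ∧ u ≤ (1 / 2 : ℝ) ^ dg u := by
  have h2 : 1 ≤ ⌊1 / u⌋₊ := by
    rw [Nat.one_le_floor_iff]
    exact (one_le_div h0).2 h1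
  have h3 : 2 ^ dg u ≤ ⌊1 / u⌋₊ := Nat.pow_log_le_self 2 (by omega)
  have h4 : ⌊1 / u⌋₊ < 2 ^ (dg u + 1) := Nat.lt_pow_succ_log_self (by norm_num) _
  have h5 : (2 : ℝ) ^ dg u ≤ 1 / u := by
    have h6 : ((2 ^ dg u : ℕ) : ℝ) ≤ ⌊1 / u⌋₊ := by exact_mod_cast h3
    push_cast at h6
    exact h6.trans (Nat.floor_le (by positivity))
  have h6 : 1 / u < (2 : ℝ) ^ (dg u + 1) := by
    have h7 : (1 / u) < ⌊1 / u⌋₊ + 1 := Nat.lt_floor_add_one _
    have h8 : ((⌊1 / u⌋₊ + 1 : ℕ) : ℝ) ≤ ((2 ^ (dg u + 1) : ℕ) : ℝ) := by exact_mod_cast h4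
    push_cast at h8
    linarith
  constructor
  · rw [one_div, inv_pow, inv_le_comm₀ (by positivity) h0]
    rw [one_div] at h6
    exact h6.le
  · rw [one_div, inv_pow, le_inv_comm₀ h0 (by positivity)]
    rw [one_div] at h5
    exact h5

theorem dg_anti {u v : ℝ} (h0 : 0 < u) (h : u ≤ v) : dg v ≤ dg u := by
  unfold dg
  refine Nat.log_mono_right (Nat.floor_mono ?_)
  exact one_div_le_one_div_of_le h0 h

theorem dg_le {u : ℝ} {m : ℕ} (h : (1 / 2 : ℝ) ^ m ≤ u) (h1 : u ≤ 1) : dg u ≤ m := by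
  have h0 : 0 < u := lt_of_lt_of_le (by positivity) h
  by_contra hcon
  push Not at hcon
  have h2 := (dg_spec h0 h1).2
  have h3 : (1 / 2 : ℝ) ^ dg u < (1 / 2 : ℝ) ^ m := pow_lt_pow_right_of_lt_one₀ (by norm_num) (by norm_num) hcon
  linarith

/-- time block and conformal box -/
structure Pk where
  t : ℤ
  B : Cbx

/-- exponent of the wide width -/
noncomputable def Pk.k (w : Pk) : ℕ := dg w.B.u2

/-- exponent of the thin width -/
noncomputable def Pk.j (w : Pk) : ℕ := dg w.B.u1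

/-- the family of boxes for the nodes of level `c` -/
noncomputable def nbf (s : Sl) (n c : ℕ) : BF Nd Pk where
  inc S w := S.T = w.t ∧ InP s n c w.B S
  F w := Okb s n c c w.B
  v w := bvol s n c w.B
  v1 _ h := one_le_bvol h
  ne := ⟨⟨0, own s n c ⟨0, 0, 0, 0⟩⟩, own_okb _ _ _ _⟩

/-- shape of an admissible box -/
theorem shape {s : Sl} {n c : ℕ} {w : Pk} (h : (nbf s n c).F w) :
    ((1 / 2 : ℝ) ^ (w.k + 1) ≤ w.B.u2 ∧ w.B.u2 ≤ (1 / 2 : ℝ) ^ w.k) ∧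
    ((1 / 2 : ℝ) ^ (w.j + 1) ≤ w.B.u1 ∧ w.B.u1 ≤ (1 / 2 : ℝ) ^ w.j) ∧ w.k ≤ w.j ∧ w.j ≤ c * n := by
  have h' := okb_self.1 h
  have h1 : 0 < w.B.u1 := lt_of_lt_of_le (rr_pos n c) h'.r1
  have h2 : 0 < w.B.u2 := lt_of_lt_of_le h1 h'.u12
  exact ⟨dg_spec h2 h'.u2, dg_spec h1 (h'.u12.trans h'.u2), dg_anti h1 h'.u12, dg_le h'.r1 (h'.u12.trans h'.u2)⟩

/-- the volume by the shape -/
theorem bvol_ge {s : Sl} {n c k j : ℕ} {B : Cbx} (h2 : (1 / 2 : ℝ) ^ (k + 1) ≤ B.u2)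
    (h1 : (1 / 2 : ℝ) ^ (j + 1) ≤ B.u1) (hkj : k + j ≤ 2 * c * n) : (2 : ℝ) ^ vx s.h n c k j ≤ 16 * bvol s n c B := by
  unfold vx bvol W.Cbx.vol
  have hr := rr_pos n c
  have hH := hh_pos n s.h c
  have hu2 : (0 : ℝ) < B.u2 := lt_of_lt_of_le (by positivity) h2
  have hu1 : (0 : ℝ) < B.u1 := lt_of_lt_of_le (by positivity) h1
  have er : ((1 / 2 : ℝ) ^ (c * n)) ^ 2 = 1 / 2 ^ (2 * c * n) := by
    rw [← pow_mul, div_pow, one_pow]
    congr 2
    ring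
  have a1 : (2 : ℝ) ^ (2 * c * n - (k + j)) ≤ 4 * (B.u1 * B.u2 / ((1 / 2 : ℝ) ^ (c * n)) ^ 2) := by
    rw [er]
    have e1 : (2 : ℝ) ^ (2 * c * n - (k + j)) = 2 ^ (2 * c * n) * ((1 / 2 : ℝ) ^ k * (1 / 2 : ℝ) ^ j) := by
      rw [← pow_add, one_div, inv_pow, ← div_eq_mul_inv, eq_div_iff (by positivity), ← pow_add]
      congr 1
      omega
    have e2 : B.u1 * B.u2 / (1 / (2:ℝ) ^ (2 * c * n)) = 2 ^ (2 * c * n) * (B.u1 * B.u2) := by
      field_simp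
    rw [e1, e2]
    have e3 : (1 / 2 : ℝ) ^ k * (1 / 2 : ℝ) ^ j ≤ (2 * B.u2) * (2 * B.u1) := by
      refine mul_le_mul ?_ ?_ (by positivity) (by positivity)
      · rw [pow_succ] at h2; linarith
      · rw [pow_succ] at h1; linarith
    calc (2 : ℝ) ^ (2 * c * n) * ((1 / 2 : ℝ) ^ k * (1 / 2 : ℝ) ^ j) ≤ 2 ^ (2 * c * n) * ((2 * B.u2) * (2 * B.u1)) :=
          mul_le_mul_of_nonneg_left e3 (by positivity)
      _ = _ := by ring
  have a2 : (2 : ℝ) ^ (2 * c * n - (s.h * n + 2 * k)) ≤ 4 * max 1 (B.u2 ^ 2 / W.hh n s.h c) := by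
    rcases le_total (2 * c * n) (s.h * n + 2 * k) with hle | hle
    · rw [Nat.sub_eq_zero_of_le hle, pow_zero]
      have := le_max_left 1 (B.u2 ^ 2 / W.hh n s.h c)
      linarith
    · have e1 : (2 : ℝ) ^ (2 * c * n - (s.h * n + 2 * k)) = ((1 / 2 : ℝ) ^ k) ^ 2 / W.hh n s.h c := by
        unfold W.hh
        rw [← pow_mul, one_div, inv_pow, eq_div_iff (by positivity), ← mul_div_assoc, ← pow_add, div_eq_iff (by positivity),
          ← div_eq_inv_mul, eq_div_iff (by positivity), ← pow_add]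
        congr 1
        omega
      rw [e1]
      have e2 : ((1 / 2 : ℝ) ^ k) ^ 2 ≤ 4 * B.u2 ^ 2 := by
        have e3 : (1 / 2 : ℝ) ^ k ≤ 2 * B.u2 := by rw [pow_succ] at h2; linarith
        calc ((1 / 2 : ℝ) ^ k) ^ 2 ≤ (2 * B.u2) ^ 2 := pow_le_pow_left₀ (by positivity) e3 2
          _ = _ := by ring
      calc ((1 / 2 : ℝ) ^ k) ^ 2 / W.hh n s.h c ≤ 4 * B.u2 ^ 2 / W.hh n s.h c := div_le_div_of_nonneg_right e2 hH.le
        _ = 4 * (B.u2 ^ 2 / W.hh n s.h c) := by ring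
        _ ≤ _ := mul_le_mul_of_nonneg_left (le_max_right _ _) (by norm_num)
  rw [pow_add]
  calc (2 : ℝ) ^ (2 * c * n - (k + j)) * 2 ^ (2 * c * n - (s.h * n + 2 * k))
      ≤ (4 * (B.u1 * B.u2 / ((1 / 2 : ℝ) ^ (c * n)) ^ 2)) * (4 * max 1 (B.u2 ^ 2 / W.hh n s.h c)) :=
        mul_le_mul a1 a2 (by positivity) (by positivity)
    _ = _ := by ring

/-- **the density in all boxes** -/
theorem dens_of (s : Sl) (n c : ℕ) (D : Finset Nd) {D' : Set Nd} (hD : ∀ S ∈ D', S ∈ D) :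
    Dens s n c D' ((nbf s n c).mx D) := by
  intro B T U hB hU
  have h1 := (nbf s n c).card_le D (w := ⟨T, B⟩) hB
  refine le_trans (Nat.cast_le.2 (Finset.card_le_card fun S hS => ?_)) h1
  rw [BF.mem_ins]
  exact ⟨hD S (hU S hS).1, (hU S hS).2⟩

theorem mx_le_of_dens {s : Sl} {n c : ℕ} {D : Finset Nd} {D' : Set Nd} {lam : ℝ} (hD : ∀ S ∈ D, S ∈ D')
    (h : Dens s n c D' lam) : (nbf s n c).mx D ≤ lam := by
  refine (nbf s n c).mx_le D fun w hw => ?_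
  refine h w.B w.t _ hw fun S hS => ?_
  rw [BF.mem_ins] at hS
  exact ⟨hD S hS.1, hS.2⟩

/-- the planks themselves are boxes: the maximal density is at least one -/
theorem one_le_mx_nbf (s : Sl) (n c : ℕ) {D : Finset Nd} (h : D.Nonempty) :
    1 ≤ (nbf s n c).mx D := by
  obtain ⟨S, hS⟩ := h
  exact (nbf s n c).one_le_mx hS (w := ⟨S.T, own s n c S⟩) (own_okb _ _ _ _) ⟨rfl, own_inP _ _ _ _⟩ (own_bvol _ _ _ _)

/-- **the number of boxes** of one shape -/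
theorem count_boxes (s : Sl) (n c : ℕ) {κ : ℝ} (hκ : 0 < κ) {D L : Finset Nd} {f : Nd → Pk}
    (h : GP (nbf s n c).inc (nbf s n c).F (fun w => κ * (nbf s n c).v w) D L f)
    {D' : Finset Nd} (hD : D' ⊆ D) (hL : ∀ S ∈ D', S ∉ L) {kk jj : ℕ}
    (hs : ∀ S ∈ D', (f S).k = kk ∧ (f S).j = jj) :
    ∃ A : Finset (Cbx × ℤ), (A.card : ℝ) * (κ * 2 ^ vx s.h n c kk jj) ≤ 16 * D.card ∧
      ∀ S ∈ D', ((f S).B, S.T) ∈ A := by
  classical
  refine ⟨(D'.image f).image fun w => (w.B, w.t), ?_, ?_⟩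
  · have h1 := h.card_image_le (D' := D') (t := κ * (2 ^ vx s.h n c kk jj / 16)) hD hL fun S hS => by
      obtain ⟨e1, e2⟩ := hs S hS
      have h2 := h.adm S (hD hS) (hL S hS)
      obtain ⟨g1, g2, g3, g4⟩ := shape h2.1
      rw [e1] at g1 g3
      rw [e2] at g2 g3 g4
      have h3 := bvol_ge (s := s) (n := n) (c := c) g1.1 g2.1 (by
        have : 2 * c * n = c * n + c * n := by ring
        omega)
      have h4 : (2 : ℝ) ^ vx s.h n c kk jj / 16 ≤ (nbf s n c).v (f S) := by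
        show _ ≤ bvol s n c (f S).B
        linarith
      exact mul_le_mul_of_nonneg_left h4 hκ.le
    have h2 : (((D'.image f).image fun w => (w.B, w.t)).card : ℝ) ≤ (D'.image f).card := by
      exact_mod_cast Finset.card_image_le
    have h3 : (0 : ℝ) ≤ κ * 2 ^ vx s.h n c kk jj := by positivity
    calc _ ≤ ((D'.image f).card : ℝ) * (κ * 2 ^ vx s.h n c kk jj) := mul_le_mul_of_nonneg_right h2 h3
      _ = 16 * ((D'.image f).card * (κ * (2 ^ vx s.h n c kk jj / 16))) := by ring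
      _ ≤ 16 * D.card := by linarith
  · intro S hS
    have h2 := (h.adm S (hD hS) (hL S hS)).2
    exact Finset.mem_image.2 ⟨f S, Finset.mem_image_of_mem _ hS, by rw [h2.1]⟩

end Vale.Agent.P106.R.H286
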