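import Vale.Agent.P106.R.H286.Plank

/-!
# P106 / R / H286 : the optimal boxes of a system of flags (helper428, after helper286)

* `exU_of`, `regW` : the fields `exU`, `Wok`, `Wfn`, `W1` of `E.RegA` from the greedy partition
-/

set_option autoImplicit false

namespace Vale.Agent.P106.R.H286

open Filter Topology Finset Vale.Agent.P127 Vale.Agent.P127.Stk Vale.Agent.P127.U Vale.Agent.P127.U.Sys
  Vale.Agent.P106.R.C2 Vale.Agent.P106.R.E
open Vale.Agent.P106.W (Cbx)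
open Vale.Agent.P122.H286 (BF GP)

section

variable {K : ℕ} (F : Flg K) (c : ℕ)

theorem two_pow_eventually (S : Sys) {ε : ℝ} (hε : 0 < ε) (C : ℝ) :
    ∀ᶠ i in (uf : Filter ℕ), C ≤ (2 : ℝ) ^ (ε * S.L i) := by
  have h1 : Tendsto (fun i => ε * (S.L i : ℝ)) (uf : Filter ℕ) atTop :=
    (tendsto_natCast_atTop_atTop.comp S.Ltop).const_mul_atTop hε
  filter_upwards [h1.eventually_ge_atTop C] with i hi
  refine hi.trans ?_
  have h2 : (ε * (S.L i : ℝ)) < 2 ^ (ε * (S.L i : ℝ)) := by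
    rcases lt_or_ge (ε * (S.L i : ℝ)) 0 with h | h
    · exact h.trans (Real.rpow_pos_of_pos (by norm_num) _)
    · have h3 := Real.add_one_le_exp (ε * (S.L i : ℝ) * Real.log 2)
      have h4 : Real.exp (ε * (S.L i : ℝ) * Real.log 2) = 2 ^ (ε * (S.L i : ℝ)) := by
        rw [Real.rpow_def_of_pos (by norm_num)]; ring_nf
      have h5 := one_add_mul_self_le_rpow_one_add (s := 1) (by norm_num) (p := ε * (S.L i : ℝ)) 
      rcases lt_or_ge (ε * (S.L i : ℝ)) 1 with h6 | h6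
      · have h7 : (1 : ℝ) ≤ 2 ^ (ε * (S.L i : ℝ)) := Real.one_le_rpow (by norm_num) h
        linarith
      · have h7 := h5 h6
        norm_num at h7
        linarith
  exact h2.le

/-- **counting excess** -/
theorem exU_of (D : ℕ → Finset Nd) (e : ℝ)
    (hN : ∀ᶠ i in (uf : Filter ℕ), ∀ ω, 0 < (F.S.P i).w ω → F.N c i ω ∈ D i)
    (he : ∀ ε : ℝ, 0 < ε → ∀ᶠ i in (uf : Filter ℕ), (nbf (F.s i) (F.n i) c).mx (D i) ≤ (2 : ℝ) ^ ((e + ε) * F.S.L i)) :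
    ExU F c e := by
  intro ε hε
  filter_upwards [hN, he ε hε] with i h1 h2
  have h4 := dens_of (F.s i) (F.n i) c (D i) (D' := {S | ∃ ω, 0 < (F.S.P i).w ω ∧ F.N c i ω = S}) (by
    rintro S ⟨ω, hω, rfl⟩
    exact h1 ω hω)
  exact h4.mono h2

/-- the box of the greedy partition -/
noncomputable def gW (f : ℕ → Nd → Pk) : F.S.RV Cbx := fun i ω => (f i (F.N c i ω)).B

/-- **the optimal boxes** -/
theorem regW (hK : 1 ≤ K) (D Lo : ℕ → Finset Nd) (f : ℕ → Nd → Pk) (κ : ℕ → ℝ) (kk jj : ℕ → ℕ) (H e ε₀ : ℝ)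
    (hκ : ∀ᶠ i in (uf : Filter ℕ), 0 < κ i)
    (hg : ∀ᶠ i in (uf : Filter ℕ), GP (nbf (F.s i) (F.n i) c).inc (nbf (F.s i) (F.n i) c).F
      (fun w => κ i * (nbf (F.s i) (F.n i) c).v w) (D i) (Lo i) (f i))
    (hN : ∀ᶠ i in (uf : Filter ℕ), ∀ ω, 0 < (F.S.P i).w ω → F.N c i ω ∈ D i ∧ F.N c i ω ∉ Lo i ∧
      (f i (F.N c i ω)).k = kk i ∧ (f i (F.N c i ω)).j = jj i)
    (hD : ∀ ε : ℝ, 0 < ε → ∀ᶠ i in (uf : Filter ℕ), ((D i).card : ℝ) ≤ (2 : ℝ) ^ ((H + ε) * F.S.L i))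
    (hκe : ∀ ε : ℝ, 0 < ε → ∀ᶠ i in (uf : Filter ℕ), (2 : ℝ) ^ ((e - ε₀ - ε) * F.S.L i) ≤ κ i) :
    (∀ᶠ i in (uf : Filter ℕ), ∀ ω, 0 < (F.S.P i).w ω → InP (F.s i) (F.n i) c (gW F c f i ω) (F.N c i ω) ∧
      Okb (F.s i) (F.n i) c c (gW F c f i ω) ∧
      ((1 / 2 : ℝ) ^ (kk i + 1) ≤ (gW F c f i ω).u2 ∧ (gW F c f i ω).u2 ≤ (1 / 2 : ℝ) ^ kk i) ∧
      ((1 / 2 : ℝ) ^ (jj i + 1) ≤ (gW F c f i ω).u1 ∧ (gW F c f i ω).u1 ≤ (1 / 2 : ℝ) ^ jj i) ∧
      kk i ≤ jj i ∧ jj i ≤ c * F.n i) ∧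
    Sys.Fn (gW F c f) (F.N c) ∧
    Cnt F.S (Sys.pr (gW F c f) (F.ball c)) (one (S := F.S))
      (H - e - F.S.nu (fun i => vx F.h (F.n i) c (kk i) (jj i)) + ε₀) := by
  have hF : ∀ᶠ i in (uf : Filter ℕ), ∀ ω, 0 < (F.S.P i).w ω →
      ((nbf (F.s i) (F.n i) c).F (f i (F.N c i ω)) ∧ (nbf (F.s i) (F.n i) c).inc (F.N c i ω) (f i (F.N c i ω))) := by
    filter_upwards [hg, hN] with i h1 h2 ω hω
    obtain ⟨a1, a2, -⟩ := h2 ω hω
    exact h1.adm _ a1 a2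
  refine ⟨?_, ?_, ?_⟩
  · filter_upwards [hF, hN] with i h1 h2 ω hω
    obtain ⟨b1, b2⟩ := h1 ω hω
    obtain ⟨-, -, c1, c2⟩ := h2 ω hω
    obtain ⟨g1, g2, g3, g4⟩ := shape b1
    rw [c1] at g1 g3
    rw [c2] at g2 g3 g4
    exact ⟨b2.2, b1, g1, g2, g3, g4⟩
  · refine Eventually.of_forall fun i ω ω' _ _ e => ?_
    show (f i (F.N c i ω)).B = (f i (F.N c i ω')).B
    rw [e]
  · -- bounded ratios
    have hK0 : (0 : ℝ) < K := by exact_mod_cast hK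
    have hLK : ∀ i, (F.S.L i : ℝ) = K * F.n i := fun i => by rw [F.L_eq i]; push_cast; ring
    have ubv : UB fun i => ((vx F.h (F.n i) c (kk i) (jj i) : ℕ) : ℝ) / F.S.L i := by
      refine UB.of_le (C := 4 * (c : ℝ)) (Eventually.of_forall fun i => by positivity) ?_
      filter_upwards [F.S.L_pos] with i h2
      have h3 : (0 : ℝ) < F.S.L i := by exact_mod_cast h2
      rw [div_le_iff₀ h3, hLK]
      have h4 : vx F.h (F.n i) c (kk i) (jj i) ≤ 4 * c * F.n i := by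
        unfold vx
        have : 4 * c * F.n i = 2 * c * F.n i + 2 * c * F.n i := by ring
        omega
      have h4' : ((vx F.h (F.n i) c (kk i) (jj i) : ℕ) : ℝ) ≤ 4 * c * F.n i := by exact_mod_cast h4
      have h5 : (1 : ℝ) ≤ K := by exact_mod_cast hK
      have h6 : (0 : ℝ) ≤ c * F.n i := by positivity
      nlinarith
    intro ε hε
    have hε4 : 0 < ε / 5 := by positivity
    have tv := (ubv.tendsto).eventually (lt_mem_nhds (sub_lt_self (F.S.nu fun i => vx F.h (F.n i) c (kk i) (jj i)) hε4))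
    filter_upwards [hg, hN, hκ, hD (ε / 5) hε4, hκe (ε / 5) hε4, tv, F.S.L_pos,
      two_pow_eventually F.S hε4 16] with i g1 g2 g5 g6 g7 g8 g10 g11
    intro ω0 hω0
    have hL0 : (0 : ℝ) < F.S.L i := by exact_mod_cast g10
    have hv' : (F.S.nu (fun i => vx F.h (F.n i) c (kk i) (jj i)) - ε / 5) * F.S.L i ≤
        ((vx F.h (F.n i) c (kk i) (jj i) : ℕ) : ℝ) := by
      rw [lt_div_iff₀ hL0] at g8; exact g8.le
    classical
    obtain ⟨A, hA, hA'⟩ := count_boxes (F.s i) (F.n i) c g5 g1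
      (D' := (D i).filter fun S => S ∉ Lo i ∧ (f i S).k = kk i ∧ (f i S).j = jj i) (Finset.filter_subset _ _)
      (fun S hS => (Finset.mem_filter.1 hS).2.1) (kk := kk i) (jj := jj i) fun S hS => (Finset.mem_filter.1 hS).2.2
    rw [F.hs i] at hA
    refine ⟨A, ?_, ?_⟩
    · -- the count
      have hpow : (0 : ℝ) < 2 ^ vx F.h (F.n i) c (kk i) (jj i) := by positivity
      have h1 : (A.card : ℝ) ≤ 16 * (D i).card / (κ i * 2 ^ vx F.h (F.n i) c (kk i) (jj i)) := by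
        rw [le_div_iff₀ (by positivity)]
        exact hA
      refine h1.trans ?_
      rw [div_le_iff₀ (by positivity)]
      have h2 : (16 : ℝ) * (D i).card ≤ 2 ^ (ε / 5 * F.S.L i) * 2 ^ ((H + ε / 5) * F.S.L i) :=
        mul_le_mul g11 g6 (Nat.cast_nonneg _) (Real.rpow_nonneg (by norm_num) _)
      refine h2.trans ?_
      have e1 : (2 : ℝ) ^ vx F.h (F.n i) c (kk i) (jj i) = 2 ^ ((vx F.h (F.n i) c (kk i) (jj i) : ℕ) : ℝ) :=
        (Real.rpow_natCast _ _).symm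
      rw [e1]
      have h3 : (2 : ℝ) ^ ((H - e - F.S.nu (fun i => vx F.h (F.n i) c (kk i) (jj i)) + ε₀ + ε) * F.S.L i) *
          ((2 : ℝ) ^ ((e - ε₀ - ε / 5) * F.S.L i) * 2 ^ ((vx F.h (F.n i) c (kk i) (jj i) : ℕ) : ℝ)) ≤
          (2 : ℝ) ^ ((H - e - F.S.nu (fun i => vx F.h (F.n i) c (kk i) (jj i)) + ε₀ + ε) * F.S.L i) *
          (κ i * 2 ^ ((vx F.h (F.n i) c (kk i) (jj i) : ℕ) : ℝ)) :=
        mul_le_mul_of_nonneg_left (mul_le_mul_of_nonneg_right g7 (Real.rpow_nonneg (by norm_num) _))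
          (Real.rpow_nonneg (by norm_num) _)
      refine le_trans ?_ h3
      rw [← Real.rpow_add (by norm_num), ← Real.rpow_add (by norm_num), ← Real.rpow_add (by norm_num)]
      refine Real.rpow_le_rpow_of_exponent_le (by norm_num) ?_
      nlinarith
    · intro ω hω _
      obtain ⟨a1, a2, a3, a4⟩ := g2 ω hω
      exact hA' (F.N c i ω) (Finset.mem_filter.2 ⟨a1, a2, a3, a4⟩)

end

end Vale.Agent.P106.R.H286
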